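import Vale.Agent.P113.H122.Space

/-!
Uniqueness of classical solutions of the incompressible Navier-Stokes equations on the torus.
-/

namespace Vale.Agent.P113.H122

open MeasureTheory Set Filter Topology

theorem Per.add_int {α : Type*} {g : (Fin 3 → ℝ) → α} (h : Per g) (x : Fin 3 → ℝ) (i : Fin 3)
    (n : ℤ) : g (x + Pi.single i (n : ℝ)) = g x := by
  have hf : Function.Periodic (fun s : ℝ => g (x + Pi.single i s)) 1 := by
    intro s
    change g (x + Pi.single i (s + 1)) = g (x + Pi.single i s)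
    rw [Pi.single_add, ← add_assoc]
    exact h _ i
  have h1 := hf.int_mul n 0
  simpa using h1

/-- The representative of a point in the unit cube. -/
noncomputable def rep (x : Fin 3 → ℝ) : Fin 3 → ℝ := fun i => Int.fract (x i)

theorem rep_mem (x : Fin 3 → ℝ) : rep x ∈ cube := by
  rw [mem_Icc, Pi.le_def, Pi.le_def]
  exact ⟨fun i => Int.fract_nonneg _, fun i => (Int.fract_lt_one _).le⟩

theorem Per.rep {α : Type*} {g : (Fin 3 → ℝ) → α} (h : Per g) (x : Fin 3 → ℝ) :
    g (rep x) = g x := by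
  have hx : x = Vale.Agent.P113.H122.rep x + Pi.single 0 (⌊x 0⌋ : ℝ) + Pi.single 1 (⌊x 1⌋ : ℝ)
      + Pi.single 2 (⌊x 2⌋ : ℝ) := by
    ext i
    fin_cases i <;> simp [Vale.Agent.P113.H122.rep, Int.fract_add_floor]
  conv_rhs => rw [hx]
  rw [h.add_int, h.add_int, h.add_int]

theorem cube_subset_closure : cube ⊆ closure (interior cube) := by
  have h1 : cube = Set.pi univ fun _ : Fin 3 => Icc (0 : ℝ) 1 := by
    rw [Set.pi_univ_Icc]; rfl
  rw [h1, interior_pi_set finite_univ, closure_pi_set]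
  simp

/-- A nonnegative continuous periodic function with zero integral over the cube vanishes. -/
theorem eq_zero_of_integral {g : (Fin 3 → ℝ) → ℝ} (hc : Continuous g) (hp : Per g)
    (h0 : ∀ x, 0 ≤ g x) (hi : ∫ x in cube, g x = 0) (x : Fin 3 → ℝ) : g x = 0 := by
  rw [setIntegral_eq_zero_iff_of_nonneg_ae (ae_of_all _ h0) (integrableOn_cube hc)] at hi
  have := Measure.eqOn_of_ae_eq hi hc.continuousOn continuous_const.continuousOn
    cube_subset_closure (rep_mem x)
  rw [hp.rep x] at this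
  exact this

/-- A periodic family of functions that is jointly continuous is bounded. -/
theorem exists_bound {T : ℝ} {g : ℝ → (Fin 3 → ℝ) → ℝ}
    (hc : ContinuousOn (fun z : ℝ × (Fin 3 → ℝ) => g z.1 z.2) (Icc 0 T ×ˢ univ))
    (hp : ∀ t ∈ Icc 0 T, Per (g t)) : ∃ C, ∀ t ∈ Icc 0 T, ∀ x, |g t x| ≤ C := by
  obtain ⟨C, hC⟩ := (isCompact_Icc.prod isCompact_Icc).exists_bound_of_continuousOn
    (hc.mono (prod_mono_right (subset_univ cube)))
  refine ⟨C, fun t ht x => ?_⟩
  have := hC (t, rep x) ⟨ht, rep_mem x⟩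
  simp only [(hp t ht).rep x] at this
  exact this

theorem slice {T : ℝ} {g : ℝ → (Fin 3 → ℝ) → ℝ}
    (hc : ContinuousOn (fun z : ℝ × (Fin 3 → ℝ) => g z.1 z.2) (Icc 0 T ×ˢ univ)) {t : ℝ}
    (ht : t ∈ Icc 0 T) : Continuous (g t) := by
  have h1 : Continuous fun x : Fin 3 → ℝ => ((t, x) : ℝ × (Fin 3 → ℝ)) := by fun_prop
  exact hc.comp_continuous h1 fun x => ⟨ht, mem_univ _⟩

/-- Continuity of the integral over the cube in time. -/
theorem continuousOn_integral {T : ℝ} {g : ℝ → (Fin 3 → ℝ) → ℝ}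
    (hc : ContinuousOn (fun z : ℝ × (Fin 3 → ℝ) => g z.1 z.2) (Icc 0 T ×ˢ univ)) :
    ContinuousOn (fun t => ∫ x in cube, g t x) (Icc 0 T) := by
  rw [continuousOn_iff_continuous_domRestrict]
  have h1 : Continuous (Function.uncurry fun (t : Icc (0 : ℝ) T) (x : Fin 3 → ℝ) => g t x) := by
    have h2 : Continuous fun z : Icc (0 : ℝ) T × (Fin 3 → ℝ) =>
        (((z.1 : ℝ), z.2) : ℝ × (Fin 3 → ℝ)) := by fun_prop
    exact hc.comp_continuous h2 fun z => ⟨z.1.2, mem_univ _⟩
  exact continuous_parametric_integral_of_continuous h1 (isCompact_Icc (a := (0 : Fin 3 → ℝ))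
    (b := 1))

/-- Differentiation of the integral over the cube in time. -/
theorem hasDerivAt_integral {T : ℝ} {g g' : ℝ → (Fin 3 → ℝ) → ℝ}
    (hc : ContinuousOn (fun z : ℝ × (Fin 3 → ℝ) => g z.1 z.2) (Icc 0 T ×ˢ univ))
    (hc' : ContinuousOn (fun z : ℝ × (Fin 3 → ℝ) => g' z.1 z.2) (Icc 0 T ×ˢ univ))
    (hd : ∀ t ∈ Icc 0 T, ∀ x, HasDerivWithinAt (fun s => g s x) (g' t x) (Icc 0 T) t)
    {t : ℝ} (ht : t ∈ Ioo 0 T) :
    HasDerivAt (fun t => ∫ x in cube, g t x) (∫ x in cube, g' t x) t := by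
  obtain ⟨C, hC⟩ := (isCompact_Icc.prod isCompact_Icc).exists_bound_of_continuousOn
    (hc'.mono (prod_mono_right (subset_univ cube)))
  have hs : Ioo 0 T ∈ 𝓝 t := Ioo_mem_nhds ht.1 ht.2
  have hsub : Ioo 0 T ⊆ Icc 0 T := Ioo_subset_Icc_self
  refine (hasDerivAt_integral_of_dominated_loc_of_deriv_le (bound := fun _ => C) hs ?_ ?_ ?_ ?_ ?_
    ?_).2
  · filter_upwards [hs] with s hs'
    exact (slice hc (hsub hs')).aestronglyMeasurable
  · exact integrableOn_cube (slice hc (hsub ht))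
  · exact (slice hc' (hsub ht)).aestronglyMeasurable
  · filter_upwards [ae_restrict_mem measurableSet_Icc] with x hx s hs'
    exact hC (s, x) ⟨hsub hs', hx⟩
  · exact integrableOn_cube (g := fun _ => C) continuous_const
  · refine ae_of_all _ fun x s hs' => ?_
    exact (hd s (hsub hs') x).hasDerivAt (Icc_mem_nhds hs'.1 hs'.2)

/-- Gronwall in the form needed here. -/
theorem gronwall_zero {T K : ℝ} {E E' : ℝ → ℝ} (hc : ContinuousOn E (Icc 0 T))
    (hd : ∀ t ∈ Ioo 0 T, HasDerivAt E (E' t) t) (hle : ∀ t ∈ Ioo 0 T, E' t ≤ K * E t)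
    (h0 : E 0 = 0) (hnn : ∀ t ∈ Icc 0 T, 0 ≤ E t) : ∀ t ∈ Icc 0 T, E t = 0 := by
  intro t ht
  have hanti : AntitoneOn (fun t => E t * Real.exp (-(K * t))) (Icc 0 T) := by
    refine antitoneOn_of_deriv_nonpos (convex_Icc 0 T) ?_ ?_ ?_
    · exact hc.mul (by fun_prop)
    · intro s hs
      rw [interior_Icc] at hs
      exact ((hd s hs).mul (HasDerivAt.exp (((hasDerivAt_id s).const_mul K).neg))).differentiableAt.differentiableWithinAt
    · intro s hs
      rw [interior_Icc] at hs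
      have h1 := (hd s hs).mul (HasDerivAt.exp (((hasDerivAt_id s).const_mul K).neg))
      have h2 : deriv (fun t => E t * Real.exp (-(K * t))) s =
          E' s * Real.exp (-(K * s)) + E s * (Real.exp (-(K * s)) * (-(K * 1))) := h1.deriv
      rw [h2]
      have h3 := hle s hs
      have h4 := Real.exp_pos (-(K * s))
      nlinarith
  have h1 := hanti (left_mem_Icc.mpr (ht.1.trans ht.2)) ht ht.1
  simp only [h0, zero_mul] at h1
  have h2 := Real.exp_pos (-(K * t))
  have h3 := hnn t ht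
  have h4 : E t ≤ 0 := by
    by_contra hneg
    push Not at hneg
    have := mul_pos hneg h2
    linarith
  exact le_antisymm h4 h3

end Vale.Agent.P113.H122
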