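import Vale.Agent.P113.Iface
import Vale.Agent.P113.H122.Time

/-!
Part 4: uniqueness of classical solutions.
-/

namespace Vale.Agent.P113.H122

open MeasureTheory Set Filter Topology

theorem per_of {I : Set ℝ} {g : ℝ → (Fin 3 → ℝ) → ℝ} (h : IsPeriodicOn I g) {t : ℝ}
    (ht : t ∈ I) : Per (g t) := by
  intro x i
  have := h t ht x (Pi.single i 1)
  rw [← this]
  congr 1
  ext k
  rcases eq_or_ne k i with rfl | hk
  · simp
  · simp [hk]

theorem pd_of {I : Set ℝ} {j : Fin 3} {g : ℝ → (Fin 3 → ℝ) → ℝ} (h : HasDx I j g) {t : ℝ}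
    (ht : t ∈ I) : PD j (g t) (dx j g t) := fun x => (h t ht x).hasDerivAt

/-- A function all of whose partial derivatives vanish is constant. -/
theorem const_of_pd {g : (Fin 3 → ℝ) → ℝ} (h : ∀ j, PD j g fun _ => 0) (x y : Fin 3 → ℝ) :
    g x = g y := by
  have key : ∀ (x : Fin 3 → ℝ) (j : Fin 3) (a : ℝ), g (Function.update x j a) = g x := by
    intro x j a
    have hd : ∀ s, HasDerivAt (fun s => g (Function.update x j s)) 0 s := by
      intro s
      have := h j (Function.update x j s)
      simpa using this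
    have h1 := is_const_of_deriv_eq_zero (f := fun s => g (Function.update x j s))
      (fun s => (hd s).differentiableAt) (fun s => (hd s).deriv) a (x j)
    simpa using h1
  have h2 : Function.update (Function.update (Function.update x 0 (y 0)) 1 (y 1)) 2 (y 2) = y := by
    ext i
    fin_cases i <;> simp
  rw [← h2, key, key, key]

theorem volume_cube : (volume : Measure (Fin 3 → ℝ)).real cube = 1 := by
  rw [Measure.real, Real.volume_Icc_pi]
  simp

/-- Uniqueness of classical solutions. -/
theorem part4 : Part4 := by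
  intro ν T f hν hT u p v q hu hv
  set I : Set ℝ := Icc 0 T with hI
  -- the difference
  set U : Fin 3 → ℝ → (Fin 3 → ℝ) → ℝ := fun i t x => u t x i with hU
  set V : Fin 3 → ℝ → (Fin 3 → ℝ) → ℝ := fun i t x => v t x i with hV
  set W : Fin 3 → ℝ → (Fin 3 → ℝ) → ℝ := fun i t x => V i t x - U i t x with hW
  set Wt : Fin 3 → ℝ → (Fin 3 → ℝ) → ℝ := fun i t x => dt I (V i) t x - dt I (U i) t x with hWt
  set dW : Fin 3 → Fin 3 → ℝ → (Fin 3 → ℝ) → ℝ :=
    fun i j t x => dx j (V i) t x - dx j (U i) t x with hdW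
  set ddW : Fin 3 → Fin 3 → ℝ → (Fin 3 → ℝ) → ℝ :=
    fun i j t x => dx j (dx j (V i)) t x - dx j (dx j (U i)) t x with hddW
  set R : ℝ → (Fin 3 → ℝ) → ℝ := fun t x => q t x - p t x with hR
  set dR : Fin 3 → ℝ → (Fin 3 → ℝ) → ℝ := fun j t x => dx j q t x - dx j p t x with hdR
  -- joint continuity
  have cW : ∀ i, ContOn I (W i) := fun i => (hv.cont_u i).sub (hu.cont_u i)
  have cWt : ∀ i, ContOn I (Wt i) := fun i => (hv.cont_dt i).sub (hu.cont_dt i)
  have cdW : ∀ i j, ContOn I (dW i j) := fun i j => (hv.cont_dx i j).sub (hu.cont_dx i j)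
  have cddW : ∀ i j, ContOn I (ddW i j) := fun i j => (hv.cont_dxx i j j).sub (hu.cont_dxx i j j)
  have cR : ContOn I R := hv.cont_p.sub hu.cont_p
  have cdR : ∀ j, ContOn I (dR j) := fun j => (hv.cont_dx_p j).sub (hu.cont_dx_p j)
  -- periodicity
  have pU : ∀ i, ∀ t ∈ I, Per (U i t) := fun i t ht => per_of (hu.periodic_u i) ht
  have pV : ∀ i, ∀ t ∈ I, Per (V i t) := fun i t ht => per_of (hv.periodic_u i) ht
  have pW : ∀ i, ∀ t ∈ I, Per (W i t) := fun i t ht x k => by
    simp only [hW, pU i t ht x k, pV i t ht x k]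
  have pR : ∀ t ∈ I, Per (R t) := fun t ht x k => by
    simp only [hR, per_of hv.periodic_p ht x k, per_of hu.periodic_p ht x k]
  -- partial derivatives
  have dU : ∀ i j, ∀ t ∈ I, PD j (U i t) (dx j (U i) t) := fun i j t ht => pd_of (hu.hasDx i j) ht
  have dV : ∀ i j, ∀ t ∈ I, PD j (V i t) (dx j (V i) t) := fun i j t ht => pd_of (hv.hasDx i j) ht
  have hWd : ∀ i j, ∀ t ∈ I, PD j (W i t) (dW i j t) := fun i j t ht =>
    (dV i j t ht).sub (dU i j t ht)
  have hWdd : ∀ i j, ∀ t ∈ I, PD j (dW i j t) (ddW i j t) := fun i j t ht =>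
    (pd_of (hv.hasDxx i j j) ht).sub (pd_of (hu.hasDxx i j j) ht)
  have hRd : ∀ j, ∀ t ∈ I, PD j (R t) (dR j t) := fun j t ht =>
    (pd_of (hv.hasDx_p j) ht).sub (pd_of (hu.hasDx_p j) ht)
  -- a bound for the gradient of `u`
  have hM : ∃ M, ∀ i j, ∀ t ∈ I, ∀ x, |dx j (U i) t x| ≤ M := by
    have h1 : ∀ i j, ∃ C, ∀ t ∈ I, ∀ x, |dx j (U i) t x| ≤ C := fun i j =>
      exists_bound (hu.cont_dx i j) fun t ht => (pU i t ht).of_pd (dU i j t ht)
    choose C hC using h1
    refine ⟨∑ i, ∑ j, |C i j|, fun i j t ht x => (hC i j t ht x).trans ((le_abs_self _).trans ?_)⟩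
    refine le_trans ?_ (Finset.single_le_sum (f := fun i => ∑ j, |C i j|)
      (fun i _ => Finset.sum_nonneg fun j _ => abs_nonneg _) (Finset.mem_univ i))
    exact Finset.single_le_sum (f := fun j => |C i j|) (fun j _ => abs_nonneg _)
      (Finset.mem_univ j)
  obtain ⟨M, hM⟩ := hM
  -- the equation for the difference
  have heq : ∀ t ∈ I, ∀ i x, Wt i t x = - dR i t x + ν * ∑ j, ddW i j t x
      - ∑ j, V j t x * dW i j t x - ∑ j, W j t x * dx j (U i) t x := by
    intro t ht i x
    have h1 := hv.momentum t ht x i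
    have h2 := hu.momentum t ht x i
    simp only [hWt, hdR, hddW, hdW, hW, Fin.sum_univ_three, hU, hV] at h1 h2 ⊢
    linear_combination h1 - h2
  -- the energy
  set g : ℝ → (Fin 3 → ℝ) → ℝ := fun t x => ∑ i, W i t x ^ 2 with hg
  set g' : ℝ → (Fin 3 → ℝ) → ℝ := fun t x => ∑ i, 2 * (W i t x * Wt i t x) with hg'
  have cg : ContOn I g := by
    have : ContinuousOn (fun z : ℝ × (Fin 3 → ℝ) => ∑ i, W i z.1 z.2 ^ 2) (I ×ˢ univ) :=
      continuousOn_finsetSum _ fun i _ => (cW i).pow 2
    exact this
  have cg' : ContOn I g' := by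
    have : ContinuousOn (fun z : ℝ × (Fin 3 → ℝ) => ∑ i, 2 * (W i z.1 z.2 * Wt i z.1 z.2))
        (I ×ˢ univ) :=
      continuousOn_finsetSum _ fun i _ => continuousOn_const.mul ((cW i).mul (cWt i))
    exact this
  have hWtd : ∀ i, ∀ t ∈ I, ∀ x, HasDerivWithinAt (fun s => W i s x) (Wt i t x) I t := by
    intro i t ht x
    exact (hv.hasDt i t ht x).hasDerivWithinAt.sub (hu.hasDt i t ht x).hasDerivWithinAt
  have hgd : ∀ t ∈ I, ∀ x, HasDerivWithinAt (fun s => g s x) (g' t x) I t := by
    intro t ht x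
    have h1 : HasDerivWithinAt (fun s => ∑ i, W i s x ^ 2)
        (∑ i, (2 : ℕ) * W i t x ^ (2 - 1) * Wt i t x) I t :=
      HasDerivWithinAt.fun_sum fun i _ => (hWtd i t ht x).pow 2
    refine h1.congr_deriv ?_
    simp only [hg']
    refine Finset.sum_congr rfl fun i _ => ?_
    push_cast
    ring
  have hE0 : ∀ t ∈ I, ∫ x in cube, g t x = 0 := by
    refine gronwall_zero (K := 6 * M) (E' := fun t => ∫ x in cube, g' t x)
      (continuousOn_integral cg) (fun t ht => hasDerivAt_integral cg cg' hgd ht) ?_ ?_ ?_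
    · intro t ht
      have ht' : t ∈ I := Ioo_subset_Icc_self ht
      have h1 := energy_space (M := M) hν.le (w := fun i => W i t) (wt := fun i => Wt i t)
        (a := fun i => V i t) (da := fun j => dx j (V j) t) (r' := fun j => dR j t) (r := R t)
        (dw := fun i j => dW i j t) (ddw := fun i j => ddW i j t)
        (b := fun i j => dx j (U i) t)
        (fun i => slice (T := T) (g := W i) (cW i) ht')
        (fun i => slice (T := T) (g := Wt i) (cWt i) ht')
        (fun i => slice (T := T) (g := V i) (hv.cont_u i) ht')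
        (fun j => slice (T := T) (g := dx j (V j)) (hv.cont_dx j j) ht')
        (slice (T := T) (g := R) cR ht') (fun j => slice (T := T) (g := dR j) (cdR j) ht')
        (fun i j => slice (T := T) (g := dW i j) (cdW i j) ht')
        (fun i j => slice (T := T) (g := ddW i j) (cddW i j) ht') (fun i => pW i t ht') (fun i => pV i t ht')
        (pR t ht') (fun i j => hWd i j t ht') (fun i j => hWdd i j t ht')
        (fun j => dV j j t ht') (fun j => hRd j t ht') (fun i j x => hM i j t ht' x)
        (fun x => by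
          have h1 := hv.incompressible t ht' x
          have h2 := hu.incompressible t ht' x
          simp only [hdW, Finset.sum_sub_distrib]
          rw [h1, h2, sub_zero])
        (fun x => hv.incompressible t ht' x)
        (fun i x => heq t ht' i x)
      have h2 : ∫ x in cube, g' t x = 2 * ∫ x in cube, ∑ i, W i t x * Wt i t x := by
        rw [← integral_const_mul]
        simp only [hg', Finset.mul_sum]
      simp only [h2, hg]
      linarith
    · have h0 : ∀ x, g 0 x = 0 := by
        intro x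
        simp only [hg, hW, hU, hV, hu.initial x, hv.initial x]
        simp
      simp [h0]
    · intro t ht
      exact integral_nonneg fun x => Finset.sum_nonneg fun i _ => sq_nonneg _
  have hg0 : ∀ t ∈ I, ∀ x, g t x = 0 := by
    intro t ht x
    refine eq_zero_of_integral (slice (T := T) (g := g) cg ht) ?_ (fun x => Finset.sum_nonneg fun i _ => sq_nonneg _)
      (hE0 t ht) x
    intro x k
    simp only [hg, pW _ t ht x k]
  have hW0 : ∀ i, ∀ t ∈ I, ∀ x, W i t x = 0 := by
    intro i t ht x
    have h1 := hg0 t ht x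
    simp only [hg] at h1
    rw [Finset.sum_eq_zero_iff_of_nonneg fun i _ => sq_nonneg _] at h1
    exact pow_eq_zero_iff two_ne_zero |>.mp (h1 i (Finset.mem_univ i))
  -- the pressure
  have hWt0 : ∀ i, ∀ t ∈ I, ∀ x, Wt i t x = 0 := by
    intro i t ht x
    have h1 := hWtd i t ht x
    have h2 : HasDerivWithinAt (fun s => W i s x) 0 I t :=
      (hasDerivWithinAt_const t I (0 : ℝ)).congr (fun s hs => hW0 i s hs x) (hW0 i t ht x)
    exact (uniqueDiffOn_Icc hT t ht).eq_deriv _ h1 h2
  have hdW0 : ∀ i j, ∀ t ∈ I, ∀ x, dW i j t x = 0 := by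
    intro i j t ht x
    have h1 := hWd i j t ht x
    have h2 : (fun s => W i t (Function.update x j s)) = fun _ => 0 :=
      funext fun s => hW0 i t ht _
    rw [h2] at h1
    exact h1.unique (hasDerivAt_const _ _)
  have hddW0 : ∀ i j, ∀ t ∈ I, ∀ x, ddW i j t x = 0 := by
    intro i j t ht x
    have h1 := hWdd i j t ht x
    have h2 : (fun s => dW i j t (Function.update x j s)) = fun _ => 0 :=
      funext fun s => hdW0 i j t ht _
    rw [h2] at h1
    exact h1.unique (hasDerivAt_const _ _)
  have hdR0 : ∀ j, ∀ t ∈ I, ∀ x, dR j t x = 0 := by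
    intro j t ht x
    have h1 := heq t ht j x
    simp only [hWt0 j t ht x, hddW0 j _ t ht x, hdW0 j _ t ht x, hW0 _ t ht x] at h1
    simp only [Finset.sum_const_zero, mul_zero, zero_mul, add_zero, sub_zero] at h1
    linarith
  have hR0 : ∀ t ∈ I, ∀ x, R t x = 0 := by
    intro t ht x
    have hconst : ∀ y, R t y = R t x := fun y => by
      refine const_of_pd (fun j => ?_) y x
      have := hRd j t ht
      exact this.congr (fun _ => rfl) fun z => (hdR0 j t ht z).symm
    have h1 : ∫ y in cube, R t y = 0 := by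
      have h2 : ∫ y in cube, R t y = (∫ y in cube, q t y) - ∫ y in cube, p t y :=
        integral_sub (integrableOn_cube (slice (T := T) (g := q) hv.cont_p ht)) (integrableOn_cube (slice (T := T) (g := p) hu.cont_p ht))
      rw [h2, hv.mean_p t ht, hu.mean_p t ht, sub_zero]
    rw [integral_congr_ae (ae_of_all _ hconst), setIntegral_const, volume_cube] at h1
    simpa using h1
  intro t ht x
  refine ⟨funext fun i => ?_, ?_⟩
  · have := hW0 i t ht x
    simp only [hW, hU, hV] at this
    linarith
  · have := hR0 t ht x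
    simp only [hR] at this
    linarith

end Vale.Agent.P113.H122
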