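import Mathlib

/-!
Integration over the unit cube of `ℝ^3` of a partial derivative of a periodic function.
-/

namespace Vale.Agent.P113.H122

open MeasureTheory Set

/-- The unit cube. -/
abbrev cube : Set (Fin 3 → ℝ) := Icc 0 1

theorem integrableOn_cube {g : (Fin 3 → ℝ) → ℝ} (hg : Continuous g) :
    IntegrableOn g cube :=
  hg.continuousOn.integrableOn_compact isCompact_Icc

/-- Fubini for the coordinate `j` of the cube. -/
theorem integral_cube_fubini (j : Fin 3) {g : (Fin 3 → ℝ) → ℝ} (hg : Continuous g) :
    ∫ x in cube, g x =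
      ∫ y in (Icc 0 1 : Set (Fin 2 → ℝ)), ∫ s in Icc (0 : ℝ) 1, g (j.insertNth s y) := by
  set e : ℝ × (Fin 2 → ℝ) ≃ᵐ (Fin 3 → ℝ) :=
    (MeasurableEquiv.piFinSuccAbove (fun _ : Fin 3 => ℝ) j).symm with he
  have hem : MeasurePreserving e :=
    (volume_preserving_piFinSuccAbove (fun _ : Fin 3 => ℝ) j).symm _
  have heπ : (e ⁻¹' cube) = Icc (0 : ℝ) 1 ×ˢ Icc (0 : Fin 2 → ℝ) 1 :=
    ((Fin.insertNthOrderIso (fun _ => ℝ) j).preimage_Icc _ _).trans (Icc_prod_eq _ _)
  have hcont : Continuous fun z : ℝ × (Fin 2 → ℝ) => g (j.insertNth z.1 z.2) := by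
    refine hg.comp ?_
    exact Continuous.finInsertNth j continuous_fst continuous_snd
  rw [← hem.map_eq, setIntegral_map_equiv, heπ, Measure.volume_eq_prod,
    ← setIntegral_prod_swap, setIntegral_prod]
  · rfl
  · have h1 : Continuous fun z : (Fin 2 → ℝ) × ℝ => g (e z.swap) := by
      exact hcont.comp continuous_swap
    exact h1.continuousOn.integrableOn_compact (isCompact_Icc.prod isCompact_Icc)

/-- The integral over the cube of the partial derivative `∂_j g` of a function with equal values on
the two faces vanishes. -/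
theorem integral_cube_deriv_eq_zero (j : Fin 3) {g g' : (Fin 3 → ℝ) → ℝ} (hg' : Continuous g')
    (hd : ∀ x, HasDerivAt (fun s => g (Function.update x j s)) (g' x) (x j))
    (hper : ∀ x, g (Function.update x j 1) = g (Function.update x j 0)) :
    ∫ x in cube, g' x = 0 := by
  rw [integral_cube_fubini j hg']
  have key : ∀ y : Fin 2 → ℝ, ∫ s in Icc (0 : ℝ) 1, g' (j.insertNth s y) = 0 := by
    intro y
    rw [integral_Icc_eq_integral_Ioc, ← intervalIntegral.integral_of_le zero_le_one]
    have hup : ∀ s t : ℝ, Function.update (j.insertNth s y : Fin 3 → ℝ) j t =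
        j.insertNth t y := fun s t => by
      rw [Fin.update_insertNth]
    have hder : ∀ s : ℝ, HasDerivAt (fun t => g (j.insertNth t y : Fin 3 → ℝ))
        (g' (j.insertNth s y)) s := by
      intro s
      have := hd (j.insertNth s y : Fin 3 → ℝ)
      simp only [hup, Fin.insertNth_apply_same] at this
      exact this
    have hcont : Continuous fun s : ℝ => g' (j.insertNth s y : Fin 3 → ℝ) :=
      hg'.comp (Continuous.finInsertNth j continuous_id continuous_const)
    rw [intervalIntegral.integral_eq_sub_of_hasDerivAt (fun s _ => hder s)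
      (hcont.intervalIntegrable 0 1)]
    have := hper (j.insertNth 0 y : Fin 3 → ℝ)
    simp only [hup] at this
    rw [this, sub_self]
  simp [key]

end Vale.Agent.P113.H122
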