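import Vale.Agent.P113.H122.Cube

/-!
Partial derivatives along coordinate lines, periodic functions, and the energy inequality for the
difference of two solutions at a fixed time.
-/

namespace Vale.Agent.P113.H122

open MeasureTheory Set

/-- `g'` is the partial derivative of `g` in the coordinate `j`. -/
def PD (j : Fin 3) (g g' : (Fin 3 → ℝ) → ℝ) : Prop :=
  ∀ x, HasDerivAt (fun s => g (Function.update x j s)) (g' x) (x j)

/-- `g` is `ℤ^3`-periodic. -/
def Per {α : Type*} (g : (Fin 3 → ℝ) → α) : Prop :=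
  ∀ x (i : Fin 3), g (x + Pi.single i 1) = g x

theorem PD.congr {j : Fin 3} {f g f' g' : (Fin 3 → ℝ) → ℝ} (h : PD j f f') (h1 : ∀ x, g x = f x)
    (h2 : ∀ x, g' x = f' x) : PD j g g' := by
  intro x
  have := h x
  rw [h2]
  simpa only [h1] using this

theorem PD.add {j : Fin 3} {f g f' g' : (Fin 3 → ℝ) → ℝ} (hf : PD j f f') (hg : PD j g g') :
    PD j (fun x => f x + g x) (fun x => f' x + g' x) := fun x => (hf x).add (hg x)

theorem PD.sub {j : Fin 3} {f g f' g' : (Fin 3 → ℝ) → ℝ} (hf : PD j f f') (hg : PD j g g') :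
    PD j (fun x => f x - g x) (fun x => f' x - g' x) := fun x => (hf x).sub (hg x)

theorem PD.neg {j : Fin 3} {f f' : (Fin 3 → ℝ) → ℝ} (hf : PD j f f') :
    PD j (fun x => - f x) (fun x => - f' x) := fun x => (hf x).neg

theorem PD.mul {j : Fin 3} {f g f' g' : (Fin 3 → ℝ) → ℝ} (hf : PD j f f') (hg : PD j g g') :
    PD j (fun x => f x * g x) (fun x => f' x * g x + f x * g' x) := by
  intro x
  have := (hf x).mul (hg x)
  simp only [Function.update_eq_self] at this
  exact this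

theorem PD.const_mul {j : Fin 3} {f f' : (Fin 3 → ℝ) → ℝ} (c : ℝ) (hf : PD j f f') :
    PD j (fun x => c * f x) (fun x => c * f' x) := fun x => (hf x).const_mul c

theorem PD.sum {ι : Type*} {j : Fin 3} (s : Finset ι) {f f' : ι → (Fin 3 → ℝ) → ℝ}
    (h : ∀ i ∈ s, PD j (f i) (f' i)) :
    PD j (fun x => ∑ i ∈ s, f i x) (fun x => ∑ i ∈ s, f' i x) := by
  intro x
  exact HasDerivAt.fun_sum fun i hi => h i hi x

theorem Per.face {g : (Fin 3 → ℝ) → ℝ} (h : Per g) (j : Fin 3) (x : Fin 3 → ℝ) :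
    g (Function.update x j 1) = g (Function.update x j 0) := by
  rw [← h (Function.update x j 0) j]
  congr 1
  ext k
  rcases eq_or_ne k j with rfl | hk
  · simp
  · simp [hk]

theorem Per.of_pd {j : Fin 3} {g g' : (Fin 3 → ℝ) → ℝ} (h : Per g) (hd : PD j g g') : Per g' := by
  intro x i
  have h1 := hd (x + Pi.single i 1)
  have h2 := hd x
  have h3 : HasDerivAt (fun s => g (Function.update (x + Pi.single i 1) j
      (s + (Pi.single i (1 : ℝ) : Fin 3 → ℝ) j))) (g' (x + Pi.single i 1)) (x j) := by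
    have := h1.comp_add_const (x j) ((Pi.single i (1 : ℝ) : Fin 3 → ℝ) j)
    simpa using this
  have h4 : (fun s => g (Function.update (x + Pi.single i 1) j
      (s + (Pi.single i (1 : ℝ) : Fin 3 → ℝ) j))) = fun s => g (Function.update x j s) := by
    funext s
    rw [← h (Function.update x j s) i]
    congr 1
    ext k
    rcases eq_or_ne k j with rfl | hk
    · simp
    · simp [hk]
  rw [h4] at h3
  exact h3.unique h2

theorem PD.integral_eq_zero {j : Fin 3} {g g' : (Fin 3 → ℝ) → ℝ} (hd : PD j g g') (hp : Per g)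
    (hc : Continuous g') : ∫ x in cube, g' x = 0 :=
  integral_cube_deriv_eq_zero j hc hd fun x => hp.face j x

theorem neg_mul_mul_le {p q b M : ℝ} (hb : |b| ≤ M) :
    -(p * q * b) ≤ M * ((p ^ 2 + q ^ 2) / 2) := by
  have h1 : |p * q| ≤ (p ^ 2 + q ^ 2) / 2 := by
    rw [abs_le]
    constructor <;> nlinarith [sq_nonneg (p - q), sq_nonneg (p + q)]
  have h2 : -(p * q * b) ≤ |p * q| * |b| := by
    rw [← abs_mul]
    exact neg_le_abs _
  have h3 : |p * q| * |b| ≤ |p * q| * M := mul_le_mul_of_nonneg_left hb (abs_nonneg _)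
  have hM : 0 ≤ M := le_trans (abs_nonneg _) hb
  have h4 : |p * q| * M ≤ (p ^ 2 + q ^ 2) / 2 * M := mul_le_mul_of_nonneg_right h1 hM
  linarith

/-- The energy inequality at a fixed time. -/
theorem energy_space {ν M : ℝ} (hν : 0 ≤ ν)
    {w wt a da r' : Fin 3 → (Fin 3 → ℝ) → ℝ} {r : (Fin 3 → ℝ) → ℝ}
    {dw ddw b : Fin 3 → Fin 3 → (Fin 3 → ℝ) → ℝ}
    (cw : ∀ i, Continuous (w i)) (cwt : ∀ i, Continuous (wt i)) (ca : ∀ i, Continuous (a i))
    (cda : ∀ i, Continuous (da i)) (cr : Continuous r) (cr' : ∀ i, Continuous (r' i))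
    (cdw : ∀ i j, Continuous (dw i j)) (cddw : ∀ i j, Continuous (ddw i j))
    (pw : ∀ i, Per (w i)) (pa : ∀ i, Per (a i)) (pr : Per r)
    (hdw : ∀ i j, PD j (w i) (dw i j)) (hddw : ∀ i j, PD j (dw i j) (ddw i j))
    (hda : ∀ j, PD j (a j) (da j)) (hr : ∀ j, PD j r (r' j))
    (hb : ∀ i j x, |b i j x| ≤ M)
    (divw : ∀ x, ∑ j, dw j j x = 0) (diva : ∀ x, ∑ j, da j x = 0)
    (heq : ∀ i x, wt i x = - r' i x + ν * ∑ j, ddw i j x - ∑ j, a j x * dw i j x
      - ∑ j, w j x * b i j x) :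
    ∫ x in cube, ∑ i, w i x * wt i x ≤ 3 * M * ∫ x in cube, ∑ i, w i x ^ 2 := by
  -- the fluxes
  set G : Fin 3 → (Fin 3 → ℝ) → ℝ := fun j x =>
    -(w j x * r x) + ν * ∑ i, w i x * dw i j x - (1 / 2) * (a j x * ∑ i, w i x * w i x) with hG
  set G' : Fin 3 → (Fin 3 → ℝ) → ℝ := fun j x =>
    -(dw j j x * r x + w j x * r' j x) + ν * ∑ i, (dw i j x * dw i j x + w i x * ddw i j x)
      - (1 / 2) * (da j x * ∑ i, w i x * w i x + a j x * ∑ i, (dw i j x * w i x + w i x * dw i j x))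
    with hG'
  have hGd : ∀ j, PD j (G j) (G' j) := by
    intro j
    refine (((hdw j j).mul (hr j)).neg.add (PD.const_mul ν ?_)).sub (PD.const_mul (1 / 2) ?_)
    · exact PD.sum _ fun i _ => (hdw i j).mul (hddw i j)
    · exact (hda j).mul (PD.sum _ fun i _ => (hdw i j).mul (hdw i j))
  have hGp : ∀ j, Per (G j) := by
    intro j x i
    have h1 : ∀ i j, Per (dw i j) := fun i j => (pw i).of_pd (hdw i j)
    simp only [hG]
    simp only [(pw _) x i, pr x i, (pa _) x i, (h1 _ _) x i]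
  have hGc : ∀ j, Continuous (G' j) := by
    intro j
    simp only [hG']
    fun_prop
  have hzero : ∀ j, ∫ x in cube, G' j x = 0 := fun j => (hGd j).integral_eq_zero (hGp j) (hGc j)
  have hpt : ∀ x, ∑ i, w i x * wt i x ≤ ∑ j, G' j x + 3 * M * ∑ i, w i x ^ 2 := by
    intro x
    have e1 : ∑ i, w i x * wt i x = ∑ j, G' j x - ν * ∑ i, ∑ j, dw i j x ^ 2
        + ∑ i, ∑ j, -(w i x * w j x * b i j x) := by
      have h1 := divw x
      have h2 := diva x
      simp only [heq, hG']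
      simp only [Fin.sum_univ_three] at h1 h2 ⊢
      linear_combination (r x) * h1 + (1/2) * (w 0 x ^ 2 + w 1 x ^ 2 + w 2 x ^ 2) * h2
    have e2 : ∑ i, ∑ j, -(w i x * w j x * b i j x) ≤ 3 * M * ∑ i, w i x ^ 2 := by
      have h1 : ∀ i j, -(w i x * w j x * b i j x) ≤ M * ((w i x ^ 2 + w j x ^ 2) / 2) :=
        fun i j => neg_mul_mul_le (hb i j x)
      have h2 : ∑ i, ∑ j, -(w i x * w j x * b i j x) ≤
          ∑ i, ∑ j, M * ((w i x ^ 2 + w j x ^ 2) / 2) :=
        Finset.sum_le_sum fun i _ => Finset.sum_le_sum fun j _ => h1 i j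
      refine h2.trans (le_of_eq ?_)
      simp only [Fin.sum_univ_three]
      ring
    have e3 : 0 ≤ ν * ∑ i, ∑ j, dw i j x ^ 2 := by positivity
    rw [e1]
    linarith
  have hcL : Continuous fun x => ∑ i, w i x * wt i x := by fun_prop
  have hcR : Continuous fun x => ∑ j, G' j x + 3 * M * ∑ i, w i x ^ 2 := by fun_prop
  have hc2 : Continuous fun x => ∑ i, w i x ^ 2 := by fun_prop
  have hcG : Continuous fun x => ∑ j, G' j x := by fun_prop
  calc ∫ x in cube, ∑ i, w i x * wt i x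
      ≤ ∫ x in cube, (∑ j, G' j x + 3 * M * ∑ i, w i x ^ 2) :=
        setIntegral_mono (integrableOn_cube hcL) (integrableOn_cube hcR) hpt
    _ = (∫ x in cube, ∑ j, G' j x) + ∫ x in cube, 3 * M * ∑ i, w i x ^ 2 :=
        integral_add (integrableOn_cube hcG) (integrableOn_cube (hc2.const_mul _))
    _ = 3 * M * ∫ x in cube, ∑ i, w i x ^ 2 := by
        rw [integral_finsetSum _ fun j _ => integrableOn_cube (hGc j)]
        simp only [hzero, Finset.sum_const_zero, zero_add]
        rw [integral_const_mul]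

end Vale.Agent.P113.H122
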